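import Vale.Agent.P277Z.S4.Bas
import Vale.Agent.P277Z.Gr.PL

/-! Degrees outside a homogeneous prime form a closed rational cone. -/

noncomputable section

namespace P277Z.S4

open P277Z.Gor P277Z.Gr Finset Filter Topology

variable {ι : Type} [Fintype ι]

theorem exists_cone_nhds {U : Set (ι → ℝ)} (hU : IsOpen U)
    (hs : ∀ c : ℝ, 0 < c → ∀ v ∈ U, c • v ∈ U) {t : ι → ℤ} (ht : toR t ∈ U) :
    ∃ s : Finset (ι → ℤ), (∀ a ∈ s, toR a ∈ U) ∧ cone s ∈ 𝓝 (toR t) := by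
  classical
  obtain ⟨ε, hε, H⟩ := Metric.isOpen_iff.1 hU _ ht
  obtain ⟨n, hn⟩ := exists_nat_one_div_lt hε
  have n0 : (0 : ℝ) < (n + 1 : ℕ) := by positivity
  let a : ι × Bool → ι → ℤ := fun p => (n + 1) • t + Pi.single p.1 (if p.2 then 1 else -1)
  refine ⟨insert t (univ.image a), fun b hb => ?_, ?_⟩
  · rcases mem_insert.1 hb with rfl | hb
    · exact ht
    obtain ⟨p, -, rfl⟩ := mem_image.1 hb
    have := hs _ n0 _ (H (a := ((n + 1 : ℕ) : ℝ)⁻¹ • toR (a p)) ?_)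
    · rwa [smul_smul, mul_inv_cancel₀ n0.ne', one_smul] at this
    rw [Metric.mem_ball, dist_eq_norm, toR_add, toR_nsmul, smul_add, smul_smul,
      inv_mul_cancel₀ n0.ne', one_smul, add_sub_cancel_left, pi_norm_lt_iff hε]
    intro i
    refine lt_of_le_of_lt ?_ hn
    rw [Pi.smul_apply, norm_smul, Real.norm_of_nonneg (inv_pos.2 n0).le, one_div]
    push_cast
    refine mul_le_of_le_one_right (by positivity) ?_
    by_cases e : i = p.1
    · subst e
      cases p.2 <;> simp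
    · simp [e]
  · have c : Continuous fun v : ι → ℝ => ((n + 1 : ℕ) : ℝ) * ∑ i, |v i - t i| := by fun_prop
    filter_upwards [(isOpen_lt c continuous_const (g := fun _ => 1)).mem_nhds (by simp)] with v hv
    have e : v = (1 - (n + 1 : ℕ) * ∑ i, |v i - t i|) • toR t +
        ∑ i, |v i - t i| • toR (a (i, decide (0 ≤ v i - t i))) := by
      funext j
      simp only [a, toR_add, toR_nsmul, smul_add, sum_add_distrib, ← sum_smul, Pi.add_apply,
        Finset.sum_apply, Pi.smul_apply, smul_eq_mul, toR_apply]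
      have : ∑ i, |v i - t i| * ((Pi.single i (if decide (0 ≤ v i - t i) = true then 1 else -1) :
          ι → ℤ) j : ℝ) = v j - t j := by
        rw [sum_eq_single j (fun i _ hi => by simp [hi.symm]) (by simp)]
        by_cases h : 0 ≤ v j - t j
        · simp only [h, decide_true, if_true, Pi.single_eq_same, abs_of_nonneg h]
          simp
        · simp only [h, decide_false, Pi.single_eq_same, abs_of_neg (not_le.1 h)]
          simp
      rw [this]
      ring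
    rw [e]
    exact add_mem_cone (smul_mem_cone (toR_mem_cone (mem_insert_self _ _)) (sub_pos.2 hv).le)
      (sum_mem_cone _ _ fun i _ => smul_mem_cone
        (toR_mem_cone (mem_insert_of_mem (mem_image_of_mem _ (mem_univ _)))) (abs_nonneg _))

/-- a finitely generated cone inside an open cone is contained in the interior of another one -/
theorem exists_cone_nhds' {U : Set (ι → ℝ)} (hU : IsOpen U)
    (hs : ∀ c : ℝ, 0 < c → ∀ v ∈ U, c • v ∈ U) {V : Set (ι → ℤ)}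
    (hV : ∀ t, toR t ∈ U → ∃ q : ℕ, 1 ≤ q ∧ q • t ∈ V) {T : Finset (ι → ℤ)}
    (hT : ∀ t ∈ T, toR t ∈ U) :
    ∃ s : Finset (ι → ℤ), (∀ a ∈ s, a ∈ V) ∧ ∀ v ∈ cone T, v ≠ 0 → cone s ∈ 𝓝 v := by
  classical
  choose! s h1 h2 using fun t (ht : t ∈ T) => exists_cone_nhds hU hs (hT t ht)
  choose! q h3 h4 using hV
  refine ⟨(T.biUnion s).image fun a => q a • a, fun a ha => ?_, ?_⟩
  · obtain ⟨b, hb, rfl⟩ := mem_image.1 ha
    obtain ⟨t, ht, hb⟩ := mem_biUnion.1 hb
    exact h4 b (h1 t ht b hb)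
  set s' := (T.biUnion s).image fun a => q a • a
  have h5 : ∀ t ∈ T, cone s' ∈ 𝓝 (toR t) := fun t ht => by
    refine mem_of_superset (h2 t ht) (cone_subset_cone fun b hb => ?_)
    have q0 : (0 : ℝ) < q b := by exact_mod_cast h3 b (h1 t ht b hb)
    have := smul_mem_cone (toR_mem_cone (s := s') (mem_image_of_mem _
      (mem_biUnion.2 ⟨t, ht, hb⟩))) (inv_pos.2 q0).le
    rwa [toR_nsmul, smul_smul, inv_mul_cancel₀ q0.ne', one_smul] at this
  rintro _ ⟨r, r0, rfl⟩ h0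
  obtain ⟨t, ht, hr⟩ := exists_ne_zero_of_sum_ne_zero h0
  have r1 : 0 < r t := (r0 t).lt_of_ne' (left_ne_zero_of_smul hr)
  have c : Continuous fun w : ι → ℝ => (r t)⁻¹ • (w - ∑ v ∈ T.erase t, r v • toR v) := by fun_prop
  have e : (r t)⁻¹ • (∑ v ∈ T, r v • toR v - ∑ v ∈ T.erase t, r v • toR v) = toR t := by
    rw [← add_sum_erase T _ ht, add_sub_cancel_right, smul_smul, inv_mul_cancel₀ r1.ne', one_smul]
  filter_upwards [c.continuousAt.preimage_mem_nhds (e ▸ h5 t ht)] with w hw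
  have := add_mem_cone (smul_mem_cone hw r1.le) (sum_mem_cone (T.erase t) _ fun v hv =>
    smul_mem_cone (mem_of_mem_nhds (h5 v (mem_of_mem_erase hv))) (r0 v))
  rwa [smul_smul, mul_inv_cancel₀ r1.ne', one_smul, sub_add_cancel] at this

variable {O K : Type*} [CommRing O] [CommRing K] [Algebra O K]

/-- the degrees at which a finitely generated quotient does not vanish -/
theorem FGm.exists_deg {M : Type*} [AddCommMonoid M] {H N : M → Submodule O K} {S : Set M}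
    (hH : Fam H) (hI : Idl H N) (h : FGm H N S) : ∃ T : Finset M, (∀ t ∈ T, ¬H t ≤ N t) ∧
      ∀ a ∈ S, ¬H a ≤ N a → a ∈ AddSubmonoid.closure (T : Set M) := by
  obtain ⟨T, h1, h2, h3⟩ := h
  have hF : (Prod.fst '' {t | t ∈ T ∧ t.2 ∉ N t.1}).Finite := (h1.subset fun _ h => h.1).image _
  refine ⟨hF.toFinset, fun t ht => ?_, fun a ha H' => ?_⟩
  · obtain ⟨p, hp, rfl⟩ := hF.mem_toFinset.1 ht
    exact fun e => hp.2 (e (h2 p hp.1))
  obtain ⟨g, hg, hn⟩ : ∃ g, Mono T a g ∧ g ∉ N a := by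
    by_contra e
    push Not at e
    exact H' ((h3 a ha).trans (sup_le (gen_le_iff.2 e) le_rfl))
  clear ha H'
  induction hg with
  | one => exact zero_mem _
  | @mul a b f g ht hg ih =>
    refine add_mem (AddSubmonoid.subset_closure (hF.mem_toFinset.2 ⟨(a, f), ⟨ht, fun e => hn ?_⟩,
      rfl⟩)) (ih fun e => hn (hI (h2 _ ht) e))
    rw [mul_comm, add_comm]
    exact hI (hg.mem_fam hH h2) e

/-- **Theorem 4.3**, abstract form. -/
theorem t43 {H N : (ι → ℤ) → Submodule O K} (hH : Fam H) (hI : Idl H N) (hP : Prm H N)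
    (h1 : (1 : K) ∉ N 0) {U : Set (ι → ℝ)} (hU : IsOpen U)
    (hs : ∀ c : ℝ, 0 < c → ∀ v ∈ U, c • v ∈ U) {V : Set (ι → ℤ)}
    (hV : ∀ t, toR t ∈ U → ∃ q : ℕ, 1 ≤ q ∧ q • t ∈ V)
    (hfg : ∀ T : Finset (ι → ℤ), (∀ t ∈ T, t ∈ V) →
      FGm H N (AddSubmonoid.closure (T : Set (ι → ℤ))))
    {T : Finset (ι → ℤ)} (hT : ∀ t ∈ T, toR t ∈ U) :
    ∃ T' : Finset (ι → ℤ), (∀ t ∈ T', toR t ∈ cone T ∧ ¬H t ≤ N t) ∧ ∀ v ∈ cone T,
      v ∈ closure {w | ∃ (c : ℝ) (a : ι → ℤ), 0 ≤ c ∧ ¬H a ≤ N a ∧ w = c • toR a} →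
        v ∈ cone T' := by
  classical
  obtain ⟨s, s1, s2⟩ := exists_cone_nhds' hU hs hV hT
  obtain ⟨d, d1, d2⟩ := FGm.exists_deg hH hI (hfg s s1)
  obtain ⟨r, hr⟩ := exists_cone_inter d T
  obtain ⟨k, hk, k1⟩ := exists_mul_mem d
  obtain ⟨l, hl, l1⟩ := exists_mul_mem s
  have k0 : (0 : ℝ) < k := by positivity
  have l0 : (0 : ℝ) < l := by positivity
  refine ⟨r.image (k • ·), fun t ht => ?_, fun v hv hc => ?_⟩
  · obtain ⟨a, ha, rfl⟩ := mem_image.1 ht
    have : toR a ∈ cone d ∩ cone T := hr ▸ toR_mem_cone ha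
    refine ⟨toR_nsmul k a ▸ smul_mem_cone this.2 k0.le, ?_⟩
    refine AddSubmonoid.closure_induction (motive := fun a _ => ¬H a ≤ N a) d1
      (fun e => h1 (e hH.one)) (fun _ _ _ _ => hP.not_le_add hH) (k1 a this.1)
  by_cases h0 : v = 0
  · exact h0 ▸ zero_mem_cone _
  have : v ∈ cone d := by
    rw [← (isClosed_cone d).closure_eq]
    refine mem_closure_iff_nhds.2 fun W hW => ?_
    obtain ⟨_, ⟨w1, w2⟩, c, a, hc, ha, rfl⟩ :=
      mem_closure_iff_nhds.1 hc _ (inter_mem hW (s2 v hv h0))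
    refine ⟨_, w1, ?_⟩
    rcases hc.eq_or_lt with rfl | hc
    · simpa using zero_mem_cone d
    have a1 := smul_mem_cone w2 (inv_pos.2 hc).le
    rw [smul_smul, inv_mul_cancel₀ hc.ne', one_smul] at a1
    have a2 := smul_mem_cone (mem_cone_of_closure (d2 _ (l1 a a1) (hP.not_le_nsmul hH h1 ha l)))
      (mul_pos hc (inv_pos.2 l0)).le
    rwa [toR_nsmul, smul_smul, inv_mul_cancel_right₀ l0.ne'] at a2
  refine cone_subset_cone (fun a ha => ?_) (hr ▸ ⟨this, hv⟩ : v ∈ cone r)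
  have := smul_mem_cone (toR_mem_cone (mem_image_of_mem (k • ·) ha)) (inv_pos.2 k0).le
  rwa [toR_nsmul, smul_smul, inv_mul_cancel₀ k0.ne', one_smul] at this

end P277Z.S4
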