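import Vale.Agent.P277Z.S4.Defs
import Vale.Agent.P277Z.Cvx.Cone

/-! Polyhedral cones and the elementary consequences of the axioms. -/

noncomputable section

namespace P277Z.S4

open P277Z.Gor P277Z.Gr Finset

section Pol

variable {ι κ : Type} [Fintype ι] [Fintype κ]

/-- cut out by finitely many integer functionals -/
def Pol (C : Set (ι → ℝ)) : Prop := ∃ T, C = hcone T

theorem pol_cone (s : Finset (ι → ℤ)) : Pol (cone s) := exists_hcone s

theorem pol_forall {σ : Type} [Finite σ] {C : σ → Set (ι → ℝ)} (h : ∀ j, Pol (C j)) :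
    Pol {x | ∀ j, x ∈ C j} := by
  classical
  have := Fintype.ofFinite σ
  choose T hT using h
  refine ⟨univ.biUnion T, Set.ext fun x => ⟨fun H a ha => ?_, fun H j => ?_⟩⟩
  · obtain ⟨j, -, hj⟩ := mem_biUnion.1 ha
    exact (hT j ▸ H j : x ∈ hcone (T j)) a hj
  · rw [hT j]
    exact fun a ha => H a (mem_biUnion.2 ⟨j, mem_univ _, ha⟩)

theorem Pol.and {C C' : Set (ι → ℝ)} (h : Pol C) (h' : Pol C') : Pol {x | x ∈ C ∧ x ∈ C'} := by
  classical
  obtain ⟨T, rfl⟩ := h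
  obtain ⟨T', rfl⟩ := h'
  exact ⟨T ∪ T', (hcone_union _ _).symm⟩

theorem Pol.imp {C : Set (ι → ℝ)} (h : Pol C) (p : Prop) : Pol {x | p → x ∈ C} := by
  by_cases hp : p
  · simpa [hp] using h
  · exact ⟨∅, Set.ext fun x => by simp [hp, hcone]⟩

theorem Pol.comp {C : Set (κ → ℝ)} (h : Pol C) (e : κ → ι) :
    Pol {x : ι → ℝ | (fun j => x (e j)) ∈ C} := by
  classical
  obtain ⟨T, rfl⟩ := h
  have H : ∀ (a : κ → ℤ) (x : ι → ℝ),
      pr (fun i => ∑ j, if e j = i then a j else 0) x = pr a fun j => x (e j) := fun a x => by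
    simp only [pr, Int.cast_sum, sum_mul]
    rw [sum_comm]
    refine sum_congr rfl fun j _ => ?_
    rw [sum_eq_single (e j) (fun i _ hi => by simp [hi.symm]) (by simp)]
    simp
  refine ⟨T.image fun a i => ∑ j, if e j = i then a j else 0, Set.ext fun x => ?_⟩
  simp only [hcone, Set.mem_ofPred_eq, mem_image, forall_exists_index, and_imp,
    forall_apply_eq_imp_iff₂, H]

theorem pr_single [DecidableEq ι] (i : ι) (x : ι → ℝ) : pr (Pi.single i 1) x = x i := by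
  unfold pr
  rw [sum_eq_single i (fun j _ hj => by simp [hj]) (by simp)]
  simp

theorem pr_sub_left (a b : ι → ℤ) (x : ι → ℝ) : pr (a - b) x = pr a x - pr b x := by
  simp [pr, sub_mul]

theorem pr_zero_left (x : ι → ℝ) : pr 0 x = 0 := by simp [pr]

theorem pol_le (i j : ι) : Pol {x : ι → ℝ | x i ≤ x j} := by
  classical
  exact ⟨{Pi.single j 1 - Pi.single i 1}, Set.ext fun x => by simp [hcone, pr_sub_left, pr_single]⟩

theorem pol_nonneg (i : ι) : Pol {x : ι → ℝ | 0 ≤ x i} := by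
  classical
  exact ⟨{Pi.single i 1}, Set.ext fun x => by simp [hcone, pr_single]⟩

theorem pol_nonpos (i : ι) : Pol {x : ι → ℝ | x i ≤ 0} := by
  classical
  exact ⟨{0 - Pi.single i 1}, Set.ext fun x => by
    simp only [hcone, Set.mem_ofPred_eq, mem_singleton, forall_eq, pr_sub_left, pr_single,
      pr_zero_left, sub_nonneg]⟩

omit [Fintype ι] in
theorem exists_of_mem_cone {s : Finset (ι → ℤ)} {x : ι → ℝ} (h : x ∈ cone s) :
    ∃ t : s → ℝ, (∀ i, 0 ≤ t i) ∧ ∀ j, x j = ∑ i, t i * i.1 j := by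
  obtain ⟨t, h1, rfl⟩ := h
  refine ⟨fun i => t i, fun i => h1 i, fun j => ?_⟩
  rw [Finset.sum_apply, ← sum_coe_sort]
  rfl

omit [Fintype ι] in
theorem mem_cone_of_closure {s : Finset (ι → ℤ)} {y : ι → ℤ}
    (h : y ∈ AddSubmonoid.closure (s : Set (ι → ℤ))) : toR y ∈ cone s :=
  (AddSubmonoid.closure_le.2 fun _ hv => toR_mem_cone hv : _ ≤ latt s) h

/-- one multiple sends all lattice points of the cone into the monoid -/
theorem exists_mul_mem (s : Finset (ι → ℤ)) : ∃ k : ℕ, 1 ≤ k ∧ ∀ y : ι → ℤ, toR y ∈ cone s →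
    k • y ∈ AddSubmonoid.closure (s : Set (ι → ℤ)) := by
  obtain ⟨k, hk, H⟩ := exists_lp fun i : s => i.1
  refine ⟨k, hk, fun y hy => ?_⟩
  obtain ⟨t, h1, h2⟩ := exists_of_mem_cone hy
  obtain ⟨n, -, h3, -⟩ := H 0 (fun _ => le_rfl) y t h1 h2
  rw [h3]
  exact sum_mem fun i _ => nsmul_mem (AddSubmonoid.subset_closure i.2) _

/-- the cone criterion with integer data -/
theorem cone_crit {C : Set (ι → ℝ)} {T : Finset (ι → ℤ)} {h : ι → ℤ} {M δ : ℝ} {k : ℕ}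
    (hc : IsClosed C) (ha : ∀ x ∈ C, ∀ y ∈ C, x + y ∈ C)
    (hs : ∀ t : ℝ, 0 < t → ∀ x ∈ C, t • x ∈ C) (hM : 0 ≤ M) (hb : ∀ x ∈ C, ‖x‖ ≤ M * pr h x)
    (hT : C ⊆ hcone T) (hδ : 0 < δ) (hk : 1 ≤ k)
    (H : ∀ w ∈ C, ∀ z : ι → ℤ, z ≠ 0 → (∀ i, (k : ℤ) ∣ z i) → ‖toR z - w‖ < δ →
      (∀ a ∈ T, pr a w ≤ pr a (toR z)) → toR z ∈ C) :
    ∃ s : Finset (ι → ℤ), (∀ z ∈ s, (∀ i, (k : ℤ) ∣ z i) ∧ toR z ∈ C) ∧ C ⊆ cone s := by
  classical
  have lat : ∀ z, Cvx.Lat k z → ∃ y : ι → ℤ, (∀ i, (k : ℤ) ∣ y i) ∧ z = toR y := by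
    rintro _ ⟨y, hy, rfl⟩
    choose y' hy' using hy
    exact ⟨k • y', fun i => by simp, funext fun i => by simp [hy']⟩
  have K : Cvx.Crit C (toR h) (fun a : T => toR a.1) k δ :=
    { convex := fun x hx y hy a b h1 h2 h3 => by
        rcases h1.eq_or_lt with rfl | h1
        · obtain rfl : b = 1 := by linarith
          simpa using hy
        rcases h2.eq_or_lt with rfl | h2
        · obtain rfl : a = 1 := by linarith
          simpa using hx
        exact ha _ (hs a h1 x hx) _ (hs b h2 y hy)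
      smul := hs
      rat_h := fun i => ⟨h i, by simp⟩
      bdd := ⟨M, hM, hb⟩
      rat_u := fun a i => ⟨a.1 i, by simp⟩
      nonneg := fun a x hx => hT hx a.1 a.2
      k_pos := hk
      δ_pos := hδ
      crit := fun w hw z hz h1 h2 h3 => by
        obtain ⟨y, hy, rfl⟩ := lat z hz
        rw [hc.closure_eq] at hw
        exact H w hw y (by rintro rfl; simp at h1) hy h2 fun a ha => h3 ⟨a, ha⟩ }
  obtain ⟨n, z, h1, h2⟩ := K.gen
  choose y h3 h4 using fun j => lat _ (h1 j).2.1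
  refine ⟨univ.image y, fun v hv => ?_, fun x hx => ?_⟩
  · obtain ⟨j, -, rfl⟩ := mem_image.1 hv
    exact ⟨h3 j, h4 j ▸ (h1 j).1⟩
  · obtain ⟨a, h5, rfl⟩ := h2 x (subset_closure hx)
    refine sum_mem_cone _ _ fun j _ => smul_mem_cone ?_ (h5 j)
    rw [h4 j]
    exact toR_mem_cone (mem_image_of_mem _ (mem_univ _))

end Pol

variable {I J : Type}

theorem toR_sd (x : Option I → ℤ) (c : J → ℤ) : toR (sd x c) = sd (toR x) (toR c) := by
  funext o
  cases o <;> rfl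

namespace Dat

variable {D : Dat I J} [Fintype J]

theorem Ax.rng (h : D.Ax) {x : Option I → ℝ} (hx : x ∈ cone D.g) :
    0 ≤ x none ∧ ∀ i, 0 ≤ x (some i) ∧ x (some i) ≤ D.ρ * x none := by
  refine cone_subset (C := {x | 0 ≤ x none ∧ ∀ i, 0 ≤ x (some i) ∧ x (some i) ≤ D.ρ * x none})
    (by simp) ?_ ?_ ?_ hx
  · rintro x ⟨h1, h2⟩ y ⟨h3, h4⟩
    refine ⟨add_nonneg h1 h3, fun i => ⟨add_nonneg (h2 i).1 (h4 i).1, ?_⟩⟩
    simp only [Pi.add_apply, mul_add]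
    exact add_le_add (h2 i).2 (h4 i).2
  · rintro x ⟨h1, h2⟩ c hc
    refine ⟨mul_nonneg hc h1, fun i => ⟨mul_nonneg hc (h2 i).1, ?_⟩⟩
    simp only [Pi.smul_apply, smul_eq_mul, mul_left_comm (D.ρ : ℝ)]
    exact mul_le_mul_of_nonneg_left (h2 i).2 hc
  · intro v hv
    obtain ⟨h1, h2⟩ := h.g_rng v hv
    simp only [Set.mem_ofPred_eq, toR_apply]
    exact_mod_cast And.intro h1 h2

theorem Ax.rng' (h : D.Ax) {x : Option I → ℤ} (hx : toR x ∈ cone D.g) : Rng D.ρ x := by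
  have := h.rng hx
  simp only [toR_apply] at this
  exact_mod_cast this

theorem Ax.R_nsmul (h : D.Ax) {x a v} (H : D.R x a v) (n : ℕ) : D.R (n • x) (n * a) (n • v) := by
  induction n with
  | zero => simpa using h.R_zero
  | succ n ih => simpa [add_mul, succ_nsmul, -nsmul_eq_mul] using h.R_add ih H

theorem Ax.nz_zero (h : D.Ax) (T : Option J) : D.NZ T 0 := ⟨0, h.RS_zero, fun _ _ => le_rfl⟩

theorem Ax.nz_add (h : D.Ax) {T y y'} (H : D.NZ T y) (H' : D.NZ T y') : D.NZ T (y + y') := by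
  obtain ⟨u, h1, h2⟩ := H
  obtain ⟨u', h3, h4⟩ := H'
  exact ⟨u + u', h.RS_add h1 h3, fun Y e => add_nonpos (h2 Y e) (h4 Y e)⟩

theorem Ax.nz_closure (h : D.Ax) {T} {s : Set (Option J → ℤ)} (hs : ∀ d ∈ s, D.NZ T d) {y}
    (hy : y ∈ AddSubmonoid.closure s) : D.NZ T y := by
  induction hy using AddSubmonoid.closure_induction with
  | mem x hx => exact hs x hx
  | zero => exact h.nz_zero T
  | add x y _ _ hx hy => exact h.nz_add hx hy

/-- bounds along the single components hold simultaneously -/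
theorem Ax.simul (h : D.Ax) (x : Option I → ℤ) (a : ℤ) (r : J → ℝ)
    (H : ∀ T : Option J, ∃ (q : ℕ) (v : J → ℤ), 1 ≤ q ∧ D.R (q • x) (q * a) v ∧
      ∀ Y, T = some Y → (v Y : ℝ) ≤ q * r Y) :
    ∃ (q : ℕ) (v : J → ℤ), 1 ≤ q ∧ D.R (q • x) (q * a) v ∧ ∀ Y, (v Y : ℝ) ≤ q * r Y := by
  classical
  suffices ∀ s : Finset J, ∃ (q : ℕ) (v : J → ℤ), 1 ≤ q ∧ D.R (q • x) (q * a) v ∧
      ∀ Y ∈ s, (v Y : ℝ) ≤ q * r Y by
    obtain ⟨q, v, h1, h2, h3⟩ := this univ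
    exact ⟨q, v, h1, h2, fun Y => h3 Y (mem_univ _)⟩
  intro s
  induction s using Finset.induction_on with
  | empty =>
    obtain ⟨q, v, h1, h2, -⟩ := H none
    exact ⟨q, v, h1, h2, by simp⟩
  | insert Y s _ ih =>
    obtain ⟨q, v, h1, h2, h3⟩ := ih
    obtain ⟨q', v', h4, h5, h6⟩ := H (some Y)
    have e1 := h.R_nsmul h2 q'
    have e2 := h.R_nsmul h5 q
    rw [smul_smul, ← mul_assoc, ← Nat.cast_mul] at e1 e2
    rw [mul_comm q q'] at e2
    obtain ⟨u, h7, h8, h9⟩ := h.R_min e1 e2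
    refine ⟨q' * q, u, Nat.mul_pos h4 h1, h7, fun Z hZ => ?_⟩
    rcases mem_insert.1 hZ with rfl | hZ
    · have : (u Z : ℝ) ≤ q * v' Z := by exact_mod_cast h9 Z
      push_cast
      nlinarith [h6 Z rfl, (Nat.cast_nonneg q : (0 : ℝ) ≤ q)]
    · have : (u Z : ℝ) ≤ q' * v Z := by exact_mod_cast h8 Z
      push_cast
      nlinarith [h3 Z hZ, (Nat.cast_nonneg q' : (0 : ℝ) ≤ q')]

/-- the uniform multiple on `S` -/
theorem Ax.exists_k (h : D.Ax) {s : Option J → Finset (Option J → ℤ)}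
    (hs : ∀ T, ∀ d ∈ s T, D.NZ T d) : ∃ k : ℕ, 1 ≤ k ∧ ∀ (τ : Set J) (y : Option J → ℤ),
      (∀ j, (k : ℤ) ∣ y j) → (∀ T, (∀ Y, T = some Y → Y ∈ τ) → toR y ∈ cone (s T)) →
        ∃ u, D.RS y u ∧ ∀ Y ∈ τ, u Y ≤ 0 := by
  classical
  choose k h1 h2 using fun T => exists_mul_mem (s T)
  have hk : 1 ≤ ∏ T, k T := one_le_prod' fun T _ => h1 T
  refine ⟨∏ T, k T, hk, fun τ y hy H => ?_⟩
  choose y' hy' using hy
  have e : y = (∏ T, k T) • y' := funext fun j => by rw [hy' j]; simp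
  have key : ∀ T, (∀ Y, T = some Y → Y ∈ τ) → D.NZ T y := fun T hT => by
    have : toR y' ∈ cone (s T) := by
      have := smul_mem_cone (H T hT) (c := ((∏ T, k T : ℕ) : ℝ)⁻¹) (by positivity)
      rwa [e, toR_nsmul, smul_smul, inv_mul_cancel₀ (by positivity), one_smul] at this
    obtain ⟨c, hc⟩ := dvd_prod_of_mem k (mem_univ T)
    refine h.nz_closure (hs T) ?_
    rw [e, hc, mul_comm, mul_smul]
    exact nsmul_mem (h2 T y' this) _
  suffices ∀ t : Finset J, ∃ u, D.RS y u ∧ ∀ Y ∈ t, Y ∈ τ → u Y ≤ 0 by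
    obtain ⟨u, h3, h4⟩ := this univ
    exact ⟨u, h3, fun Y => h4 Y (mem_univ _)⟩
  intro t
  induction t using Finset.induction_on with
  | empty =>
    obtain ⟨u, h3, -⟩ := key none (by simp)
    exact ⟨u, h3, by simp⟩
  | insert Y t _ ih =>
    obtain ⟨u, h3, h4⟩ := ih
    by_cases hY : Y ∈ τ
    · obtain ⟨u', h5, h6⟩ := key (some Y) (by simpa using hY)
      obtain ⟨w, h7, h8, h9⟩ := h.RS_min h3 h5
      refine ⟨w, h7, fun Z hZ hZ' => ?_⟩
      rcases mem_insert.1 hZ with rfl | hZ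
      · exact (h9 Z).trans (h6 Z rfl)
      · exact (h8 Z).trans (h4 Z hZ hZ')
    · refine ⟨u, h3, fun Z hZ hZ' => ?_⟩
      rcases mem_insert.1 hZ with rfl | hZ
      · exact absurd hZ' hY
      · exact h4 Z hZ hZ'

end Dat

end P277Z.S4
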