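import Vale.Agent.P277Z.S4.Bas

/-! The cones of triples `(m, b, c)` at which sections lift are finitely generated. -/

noncomputable section

namespace P277Z.S4

open P277Z.Gor P277Z.Gr Finset

variable {I J : Type}

namespace Dat

variable (D : Dat I J) (s : Option J → Finset (Option J → ℤ)) (τ : Set J)

/-- the ambient cone -/
def Amb : Set (Option I ⊕ J → ℝ) :=
  {w | pX w ∈ cone D.g ∧ (∀ T, (∀ Y, T = some Y → Y ∈ τ) → sd (pX w) (pC w) ∈ cone (s T)) ∧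
    ∀ Y, 0 ≤ pC w Y ∧ pC w Y ≤ D.bp (pX w) Y ∧ (Y ∉ τ → pC w Y ≤ 0)}

/-- lattice points of the ambient cone with a section of small order along `τ` -/
def Zt (z : Option I ⊕ J → ℤ) : Prop :=
  toR z ∈ D.Amb s τ ∧ ∃ v, D.R (pX z) 0 v ∧ ∀ Y ∈ τ, v Y ≤ D.bp (pX z) Y - pC z Y

/-- their fractions -/
def Ds : Set (Option I ⊕ J → ℝ) :=
  {w | ∃ (q : ℕ) (z : Option I ⊕ J → ℤ), 1 ≤ q ∧ D.Zt s τ z ∧ w = (q : ℝ)⁻¹ • toR z}

theorem pol_amb [Fintype I] [Fintype J] : Pol (D.Amb s τ) := by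
  refine ((pol_cone D.g).comp Sum.inl).and (Pol.and (pol_forall fun T => Pol.imp ?_ _)
    (pol_forall fun Y => (pol_nonneg (Sum.inr Y)).and
      ((pol_le (Sum.inr Y) (Sum.inl (some (D.par Y)))).and ((pol_nonpos (Sum.inr Y)).imp _))))
  have e : ∀ w : Option I ⊕ J → ℝ, (fun o : Option J =>
      w (o.elim (.inl none) .inr : Option I ⊕ J)) = sd (pX w) (pC w) := fun w => by
    funext o
    cases o <;> rfl
  have := (pol_cone (s T)).comp fun o : Option J => (o.elim (.inl none) .inr : Option I ⊕ J)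
  simp only [e] at this
  exact this

variable {D s τ} [Fintype I] [Fintype J]

theorem Amb.add {w w'} (h : w ∈ D.Amb s τ) (h' : w' ∈ D.Amb s τ) : w + w' ∈ D.Amb s τ := by
  obtain ⟨U, hU⟩ := D.pol_amb s τ
  rw [hU] at h h' ⊢
  exact add_mem_hcone h h'

theorem Amb.smul {w} (h : w ∈ D.Amb s τ) {c : ℝ} (hc : 0 ≤ c) : c • w ∈ D.Amb s τ := by
  obtain ⟨U, hU⟩ := D.pol_amb s τ
  rw [hU] at h ⊢
  exact smul_mem_hcone h hc

theorem isClosed_amb : IsClosed (D.Amb s τ) := by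
  obtain ⟨U, hU⟩ := D.pol_amb s τ
  rw [hU]
  exact isClosed_hcone U

theorem Ax.norm_le (h : D.Ax) {w} (hw : w ∈ D.Amb s τ) : ‖w‖ ≤ (D.ρ + 1) * w (.inl none) := by
  obtain ⟨h1, h2⟩ := h.rng hw.1
  have h1' : 0 ≤ w (.inl none) := h1
  have h0 : (0 : ℝ) ≤ D.ρ * w (.inl none) := by positivity
  refine (pi_norm_le_iff_of_nonneg (by positivity)).2 ?_
  rintro ((_ | i) | Y)
  · rw [Real.norm_of_nonneg h1']; linarith
  · have a : 0 ≤ w (.inl (some i)) := (h2 i).1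
    have b : w (.inl (some i)) ≤ D.ρ * w (.inl none) := (h2 i).2
    rw [Real.norm_of_nonneg a]; linarith
  · have a : 0 ≤ w (.inr Y) := (hw.2.2 Y).1
    have b : w (.inr Y) ≤ D.ρ * w (.inl none) := (hw.2.2 Y).2.1.trans (h2 _).2
    rw [Real.norm_of_nonneg a]; linarith

theorem Ax.pos (h : D.Ax) {z} (hz : toR z ∈ D.Amb s τ) (h0 : z ≠ 0) : 1 ≤ pX z none := by
  by_contra H
  have a : (z (.inl none) : ℝ) ≤ 0 := by exact_mod_cast Int.lt_add_one_iff.1 (not_le.1 H)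
  refine h0 (toR_injective ?_)
  rw [toR_zero, ← norm_le_zero_iff]
  exact (h.norm_le hz).trans (mul_nonpos_of_nonneg_of_nonpos (by positivity) a)

theorem Zt.add (h : D.Ax) {z z'} (H : D.Zt s τ z) (H' : D.Zt s τ z') : D.Zt s τ (z + z') := by
  obtain ⟨h1, v, h2, h3⟩ := H
  obtain ⟨h4, v', h5, h6⟩ := H'
  refine ⟨toR_add z z' ▸ Amb.add h1 h4, v + v', (add_zero (0 : ℤ)) ▸ h.R_add h2 h5, fun Y hY => ?_⟩
  have a := h3 Y hY
  have b := h6 Y hY
  simp only [bp, pX, pC, Pi.add_apply] at a b ⊢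
  linarith

theorem Zt.nsmul (h : D.Ax) {z} (H : D.Zt s τ z) (n : ℕ) : D.Zt s τ (n • z) := by
  obtain ⟨h1, v, h2, h3⟩ := H
  refine ⟨toR_nsmul n z ▸ Amb.smul h1 n.cast_nonneg, n • v, (mul_zero (n : ℤ)) ▸ h.R_nsmul h2 n,
    fun Y hY => ?_⟩
  have a := mul_le_mul_of_nonneg_left (h3 Y hY) (n.cast_nonneg : (0 : ℤ) ≤ n)
  simp only [bp, pX, pC, Pi.smul_apply, nsmul_eq_mul] at a ⊢
  linarith

theorem cl_sub : closure (D.Ds s τ) ⊆ D.Amb s τ := by
  refine closure_minimal ?_ isClosed_amb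
  rintro _ ⟨q, z, -, hz, rfl⟩
  exact Amb.smul hz.1 (by positivity)

theorem Ax.cl_add (h : D.Ax) : ∀ w ∈ closure (D.Ds s τ), ∀ w' ∈ closure (D.Ds s τ),
    w + w' ∈ closure (D.Ds s τ) := fun w hw w' hw' => by
  refine map_mem_closure₂ continuous_add hw hw' ?_
  rintro _ ⟨q, z, h1, h2, rfl⟩ _ ⟨q', z', h3, h4, rfl⟩
  refine ⟨q * q', q' • z + q • z', Nat.mul_pos h1 h3, (h2.nsmul h _).add h (h4.nsmul h _), ?_⟩
  have a : (q : ℝ) ≠ 0 := by positivity
  have b : (q' : ℝ) ≠ 0 := by positivity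
  rw [toR_add, toR_nsmul, toR_nsmul, smul_add, smul_smul, smul_smul]
  congr 2 <;> push_cast <;> field_simp

theorem Ax.cl_smul (h : D.Ax) : ∀ t : ℝ, 0 < t → ∀ w ∈ closure (D.Ds s τ),
    t • w ∈ closure (D.Ds s τ) := fun t ht w hw => by
  have H : t ∈ closure {r : ℝ | ∃ p q : ℕ, 1 ≤ q ∧ r = p / q} := by
    refine Metric.mem_closure_iff.2 fun ε hε => ?_
    obtain ⟨r, h1, h2⟩ := exists_rat_btwn (lt_add_of_pos_right t hε)
    have h3 : 0 ≤ r.num := Rat.num_nonneg.2 (by exact_mod_cast (ht.trans h1).le)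
    refine ⟨r, ⟨r.num.toNat, r.den, r.den_pos, ?_⟩, ?_⟩
    · rw [Rat.cast_def, ← Int.cast_natCast r.num.toNat, Int.toNat_of_nonneg h3]
    · rw [Real.dist_eq, abs_lt]
      constructor <;> linarith
  refine map_mem_closure₂ continuous_smul H hw ?_
  rintro _ ⟨p, q, h1, rfl⟩ _ ⟨q', z, h2, h3, rfl⟩
  refine ⟨q * q', p • z, Nat.mul_pos h1 h2, h3.nsmul h _, ?_⟩
  rw [toR_nsmul, smul_smul, smul_smul]
  congr 1
  push_cast
  field_simp

/-- lattice points close to the cone belong to it, and sections lift there -/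
theorem Ax.crit (h : D.Ax) (hs : ∀ T, ∀ d ∈ s T, D.NZ T d) : ∃ (k : ℕ) (δ : ℝ), 1 ≤ k ∧ 0 < δ ∧
    ∀ τ, ∀ w ∈ closure (D.Ds s τ), ∀ z : Option I ⊕ J → ℤ, z ≠ 0 → (∀ i, (k : ℤ) ∣ z i) →
      toR z ∈ D.Amb s τ → ‖toR z - w‖ < δ →
      (∀ Y, D.bp (pX w) Y - pC w Y ≤ (D.bp (pX z) Y - pC z Y : ℤ)) →
        D.Zt s τ z ∧ D.Lift (pX z) (pC z) := by
  obtain ⟨k, hk, hS⟩ := h.exists_k hs
  obtain ⟨e, he⟩ := h.amp
  refine ⟨k, 1 / (2 * (e + 1)), hk, by positivity, fun τ w hw z h0 hz hA hn hle => ?_⟩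
  have c0 : 0 ≤ pC z := fun Y => by
    have := (hA.2.2 Y).1
    exact_mod_cast (show (0 : ℝ) ≤ (pC z Y : ℤ) from this)
  have c1 : pC z ≤ D.bp (pX z) := fun Y => by
    have := (hA.2.2 Y).2.1
    exact_mod_cast (show ((pC z Y : ℤ) : ℝ) ≤ (D.bp (pX z) Y : ℤ) from this)
  have L : D.Lift (pX z) (pC z) := by
    refine h.t34 _ _ hA.1 (h.pos hA h0) c0 c1 fun η hη => ?_
    obtain ⟨_, ⟨q, z', hq, ⟨-, v, h1, h2⟩, rfl⟩, hd⟩ := Metric.mem_closure_iff.1 hw
      (min (1 / (2 * (e + 1))) (η / 2)) (by positivity)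
    have q0 : (0 : ℝ) < q := by positivity
    have hd' : ∀ i, |w i - (q : ℝ)⁻¹ * z' i| < min (1 / (2 * (e + 1)) : ℝ) (η / 2) := fun i =>
      (dist_le_pi_dist w _ i).trans_lt hd
    obtain ⟨q', v', h3, h4, h5⟩ := h.simul (q • pX z - pX z') q 0 fun T => by
      obtain ⟨q', v', h3, h4, h5⟩ := he (q • pX z - pX z') q T (by exact_mod_cast hq) fun i => by
        have a : |(z (.inl i) : ℝ) - w (.inl i)| < 1 / (2 * (e + 1)) :=
          (norm_le_pi_norm (toR z - w) (.inl i)).trans_lt hn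
        have b := (hd' (.inl i)).trans_le (min_le_left _ _)
        have c : |(z (.inl i) : ℝ) - (q : ℝ)⁻¹ * z' (.inl i)| < 1 / (e + 1) := by
          refine ((abs_sub_le _ _ _).trans_lt (add_lt_add a b)).trans_eq ?_
          field_simp
          norm_num
        have d : ((q • pX z - pX z') i : ℝ) = q * ((z (.inl i) : ℝ) - (q : ℝ)⁻¹ * z' (.inl i)) := by
          rw [Pi.sub_apply, Pi.smul_apply, nsmul_eq_mul]
          simp only [pX]
          push_cast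
          field_simp
        have f : (e : ℝ) * |((q • pX z - pX z') i : ℝ)| ≤ q := by
          rw [d, abs_mul, abs_of_pos q0, mul_left_comm]
          refine mul_le_of_le_one_right q0.le ?_
          rw [lt_div_iff₀ (by positivity)] at c
          nlinarith [abs_nonneg ((z (.inl i) : ℝ) - (q : ℝ)⁻¹ * z' (.inl i))]
        exact_mod_cast f
      exact ⟨q', v', h3, h4, fun Y hY => by simpa using h5 Y hY⟩
    have h6 := h.R_add h4 (h.R_nsmul h1 q')
    rw [← smul_add, sub_add_cancel, smul_smul, mul_zero, add_zero, ← Nat.cast_mul] at h6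
    refine ⟨q' * q, _, Nat.mul_pos h3 hq, h6, fun Y => ?_⟩
    by_cases hY : Y ∈ τ
    · refine (min_le_right _ _).trans ?_
      have a : (v Y : ℝ) ≤ z' (.inl (some (D.par Y))) - z' (.inr Y) := by exact_mod_cast h2 Y hY
      have b := abs_lt.1 ((hd' (.inl (some (D.par Y)))).trans_le (min_le_right _ _))
      have c := abs_lt.1 ((hd' (.inr Y)).trans_le (min_le_right _ _))
      have d : w (.inl (some (D.par Y))) - w (.inr Y) ≤ _ := hle Y
      have f : (q : ℝ)⁻¹ * v Y ≤ (D.bp (pX z) Y - pC z Y : ℤ) + η := by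
        have := mul_le_mul_of_nonneg_left a (inv_pos.2 q0).le
        linarith [b.1, c.2]
      rw [inv_mul_le_iff₀ q0] at f
      have g : (v' Y : ℝ) ≤ 0 := by simpa using h5 Y
      rw [Pi.add_apply, Pi.smul_apply, nsmul_eq_mul, Int.cast_add, Int.cast_mul,
        Int.cast_natCast, Nat.cast_mul, mul_assoc]
      nlinarith [(Nat.cast_nonneg q' : (0 : ℝ) ≤ q')]
    · refine (min_le_left _ _).trans (mul_le_mul_of_nonneg_left ?_ (Nat.cast_nonneg _))
      have : ((pC z Y : ℤ) : ℝ) ≤ 0 := (hA.2.2 Y).2.2 hY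
      push_cast
      linarith
  obtain ⟨u, h1, h2⟩ := hS τ (sd (pX z) (pC z)) (by rintro (_ | Y) <;> exact hz _)
    fun T hT => by rw [toR_sd]; exact hA.2.1 T hT
  refine ⟨⟨hA, _, h.lift c0 c1 L h1, fun Y hY => ?_⟩, L⟩
  have := h2 Y hY
  simp only [Pi.add_apply, Pi.sub_apply]
  linarith

end Dat

end P277Z.S4
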