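import Vale.Agent.P277Z.Cvx.Gordan
import Vale.Agent.P277Z.Gr.Sat

/-!
# Restricted rings of plt adjoint divisors: the abstract data

`S` is a prime divisor of a smooth space, `S_i` (`i : I`) are further prime divisors, `Y : J` are the
components of the `S_i` on `S` and `par Y` is the index `i` with `Y ⊆ S_i`.
A degree `x : Option I → ℤ` stands for `x none • (K + S + A) + ∑ x (some i) • S_i`, a degree
`y : Option J → ℤ` for `y none • (K_S + A|S) + ∑ y (some Y) • Y`.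
-/

noncomputable section

namespace P277Z.S4

open P277Z.Gor

variable {I J : Type}

/-- `R x a v`: a section of degree `x + a A`, not zero on `S`, of order `v Y` along `Y` there.
`RS y u`: a non zero section of degree `y` on `S` of order `u Y` along `Y`.
`Lift x c`: every section of degree `sd x c` on `S` extends as a section of degree `x`.
The cone spanned by `g` is the cone over the polytope of boundaries. -/
structure Dat (I J : Type) where
  par : J → I
  ρ : ℕ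
  g : Finset (Option I → ℤ)
  R : (Option I → ℤ) → ℤ → (J → ℤ) → Prop
  RS : (Option J → ℤ) → (J → ℤ) → Prop
  Lift : (Option I → ℤ) → (J → ℤ) → Prop

/-- the degree on `S` with boundary part `c` -/
def sd {α : Type} (x : Option I → α) (c : J → α) : Option J → α := fun o => o.elim (x none) c

/-- the range `0 ≤ b ≤ ρ m` -/
def Rng (ρ : ℕ) (x : Option I → ℤ) : Prop :=
  0 ≤ x none ∧ ∀ i, 0 ≤ x (some i) ∧ x (some i) ≤ ρ * x none

/-- the first half of a triple `(m, b, c)` -/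
def pX {α : Type} (z : Option I ⊕ J → α) : Option I → α := fun i => z (.inl i)

/-- the second half of a triple `(m, b, c)` -/
def pC {α : Type} (z : Option I ⊕ J → α) : J → α := fun Y => z (.inr Y)

namespace Dat

variable (D : Dat I J)

/-- the boundary part of `x` restricted to `S` -/
def bp {α : Type} (x : Option I → α) : J → α := fun Y => x (some (D.par Y))

/-- a non zero section of degree `y` on `S` which does not vanish along `T` -/
def NZ (T : Option J) (y : Option J → ℤ) : Prop := ∃ u, D.RS y u ∧ ∀ Y, T = some Y → u Y ≤ 0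

/-- The inputs of section 4. -/
structure Ax [Fintype J] : Prop where
  g_rng : ∀ x ∈ D.g, Rng D.ρ x
  R_zero : D.R 0 0 0
  R_add : ∀ {x x' a a' v v'}, D.R x a v → D.R x' a' v' → D.R (x + x') (a + a') (v + v')
  R_min : ∀ {x a v w}, D.R x a v → D.R x a w → ∃ u, D.R x a u ∧ u ≤ v ∧ u ≤ w
  R_nonneg : ∀ {x v}, D.R x 0 v → 0 ≤ v
  RS_zero : D.RS 0 0
  RS_add : ∀ {y y' u u'}, D.RS y u → D.RS y' u' → D.RS (y + y') (u + u')
  RS_min : ∀ {y u u'}, D.RS y u → D.RS y u' → ∃ w, D.RS y w ∧ w ≤ u ∧ w ≤ u'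
  div : ∀ {x v d}, D.R x 0 v → 0 ≤ d → d ≤ v → d ≤ D.bp x → D.RS (sd x (D.bp x - d)) (v - d)
  lift : ∀ {x c u}, 0 ≤ c → c ≤ D.bp x → D.Lift x c → D.RS (sd x c) u →
    D.R x 0 (u + D.bp x - c)
  amp : ∃ e : ℕ, ∀ (x : Option I → ℤ) (a : ℤ) (T : Option J), 0 < a → (∀ i, e * |x i| ≤ a) →
    ∃ (q : ℕ) (v : J → ℤ), 1 ≤ q ∧ D.R (q • x) (q * a) v ∧ ∀ Y, T = some Y → v Y ≤ 0
  t34 : ∀ x c, toR x ∈ cone D.g → 1 ≤ x none → 0 ≤ c → c ≤ D.bp x →
    (∀ η : ℝ, 0 < η → ∃ (q : ℕ) (v : J → ℤ), 1 ≤ q ∧ D.R (q • x) q v ∧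
      ∀ Y, min ((q : ℝ) * (D.bp x Y : ℤ)) (v Y) ≤ q * ((D.bp x Y - c Y : ℤ) + η)) → D.Lift x c
  gen : ∀ T : Option J, ∃ s : Finset (Option J → ℤ), (∀ d ∈ s, D.NZ T d) ∧
    ∀ y, Rng D.ρ y → D.NZ T y → toR y ∈ cone s

/-- a triple `(m, b, c)` in the range at which sections lift -/
structure Good (z : Option I ⊕ J → ℤ) : Prop where
  mem : toR (pX z) ∈ cone D.g
  pos : 1 ≤ pX z none
  nonneg : 0 ≤ pC z
  le : pC z ≤ D.bp (pX z)
  lift : D.Lift (pX z) (pC z)
  ex : ∃ v, D.R (pX z) 0 v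

/-- The output of section 4. -/
def Out : Prop :=
  ∃ (k : ℕ) (M : Set J → AddSubmonoid (Option I ⊕ J → ℤ)), 1 ≤ k ∧ (∀ τ, (M τ).FG) ∧
    (∀ τ, ∀ z ∈ M τ, z ≠ 0 → D.Good z) ∧
    ∀ (x : Option I → ℤ) (q : ℕ) (v : J → ℤ), toR x ∈ cone D.g → 1 ≤ x none → 1 ≤ q →
      D.R (q • x) 0 v → ∃ τ, ∃ z ∈ M τ, pX z = k • x ∧
        ∀ w, D.R (k • x) 0 w → D.bp (k • x) - pC z ≤ w

end Dat

end P277Z.S4
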