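import Vale.Agent.P277Z.S4.Core

/-! The abstract form of section 4 of Cascini and Lazic. -/

noncomputable section

namespace P277Z.S4

open P277Z.Gor P277Z.Gr Finset

variable {I J : Type}

namespace Dat

variable {D : Dat I J} {s : Option J → Finset (Option J → ℤ)} [Fintype I] [Fintype J]

omit [Fintype I] in
/-- the asymptotic orders -/
theorem Ax.exists_f (h : D.Ax) {x : Option I → ℤ} {q₀ : ℕ} {v₀} (h0 : 1 ≤ q₀)
    (H : D.R (q₀ • x) 0 v₀) : ∃ f : J → ℝ, (∀ Y, 0 ≤ f Y) ∧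
      (∀ (q : ℕ) v, 1 ≤ q → D.R (q • x) 0 v → ∀ Y, q * f Y ≤ v Y) ∧
      ∀ η : ℝ, 0 < η → ∃ (q : ℕ) (v : J → ℤ), 1 ≤ q ∧ D.R (q • x) 0 v ∧
        ∀ Y, (v Y : ℝ) ≤ q * (f Y + η) := by
  let E : J → Set ℝ := fun Y =>
    {r | ∃ (q : ℕ) (v : J → ℤ), 1 ≤ q ∧ D.R (q • x) 0 v ∧ r = v Y / q}
  have e0 : ∀ Y, ∀ r ∈ E Y, 0 ≤ r := by
    rintro Y _ ⟨q, v, -, h1, rfl⟩
    exact div_nonneg (by exact_mod_cast h.R_nonneg h1 Y) q.cast_nonneg
  refine ⟨fun Y => sInf (E Y), fun Y => Real.sInf_nonneg (e0 Y), fun q v h1 h2 Y => ?_,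
    fun η hη => ?_⟩
  · rw [← le_div_iff₀' (by positivity)]
    exact csInf_le ⟨0, e0 Y⟩ ⟨q, v, h1, h2, rfl⟩
  · simpa only [mul_zero] using h.simul x 0 (fun Y => sInf (E Y) + η) fun T => by
      simp only [mul_zero]
      rcases T with _ | Y
      · exact ⟨q₀, v₀, h0, H, by simp⟩
      · obtain ⟨_, ⟨q, v, h1, h2, rfl⟩, h3⟩ := exists_lt_of_csInf_lt
          (s := E Y) ⟨_, q₀, v₀, h0, H, rfl⟩ (lt_add_of_pos_right _ hη)
        refine ⟨q, v, h1, h2, ?_⟩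
        rintro _ ⟨⟩
        exact ((div_lt_iff₀' (by positivity)).1 h3).le

/-- the point `(x, Φ x)` lies in the cone -/
theorem Ax.mem_cl (h : D.Ax) (hs : ∀ T y, Rng D.ρ y → D.NZ T y → toR y ∈ cone (s T))
    {x : Option I → ℤ} (hx : toR x ∈ cone D.g) {f : J → ℝ}
    (h1 : ∀ (q : ℕ) v, 1 ≤ q → D.R (q • x) 0 v → ∀ Y, q * f Y ≤ v Y)
    (h2 : ∀ η : ℝ, 0 < η → ∃ (q : ℕ) (v : J → ℤ), 1 ≤ q ∧ D.R (q • x) 0 v ∧
      ∀ Y, (v Y : ℝ) ≤ q * (f Y + η)) :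
    Sum.elim (toR x) (fun Y => max ((D.bp x Y : ℤ) - f Y) 0) ∈
      closure (D.Ds s {Y | f Y < (D.bp x Y : ℤ)}) := by
  refine Metric.mem_closure_iff.2 fun ε hε => ?_
  obtain ⟨η, hη, h3⟩ := exists_pos_le_of_finite_aux
    (fun Y => if f Y < (D.bp x Y : ℤ) then (D.bp x Y : ℤ) - f Y else 1) fun Y => by
      split_ifs with e
      · exact sub_pos.2 e
      · exact one_pos
  obtain ⟨q, v, hq, h4, h5⟩ := h2 (min η (ε / 2)) (by positivity)
  have q0 : (0 : ℝ) < q := by positivity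
  have hx' : toR (q • x) ∈ cone D.g := toR_nsmul q x ▸ smul_mem_cone hx q0.le
  obtain ⟨r1, r2⟩ := h.rng' hx'
  have b0 : ∀ Y, D.bp (q • x) Y = q * D.bp x Y := fun Y => by simp [bp]
  have a1 : ∀ Y, f Y < (D.bp x Y : ℤ) → (v ⊓ D.bp (q • x)) Y = v Y := fun Y hY => by
    refine inf_eq_left.2 (?_ : v Y ≤ D.bp (q • x) Y)
    have a := h3 Y
    rw [if_pos hY] at a
    have : (v Y : ℝ) ≤ q * (D.bp x Y : ℤ) :=
      (h5 Y).trans (mul_le_mul_of_nonneg_left (by linarith [min_le_left η (ε / 2)]) q0.le)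
    rw [b0]
    exact_mod_cast this
  have a2 : ∀ Y, ¬f Y < (D.bp x Y : ℤ) → (v ⊓ D.bp (q • x)) Y = D.bp (q • x) Y := fun Y hY => by
    refine inf_eq_right.2 (?_ : D.bp (q • x) Y ≤ v Y)
    have := (mul_le_mul_of_nonneg_left (not_lt.1 hY) q0.le).trans (h1 q v hq h4 Y)
    rw [b0]
    exact_mod_cast this
  have d0 : 0 ≤ v ⊓ D.bp (q • x) := le_inf (h.R_nonneg h4) fun Y => (r2 _).1
  have hd := h.div h4 d0 inf_le_left inf_le_right
  set d := v ⊓ D.bp (q • x)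
  have c0 : ∀ Y, 0 ≤ D.bp (q • x) Y - d Y := fun Y => sub_nonneg.2 (inf_le_right (a := v) Y)
  have c1 : ∀ Y, D.bp (q • x) Y - d Y ≤ D.bp (q • x) Y := fun Y => sub_le_self _ (d0 Y)
  refine ⟨_, ⟨q, Sum.elim (q • x) (D.bp (q • x) - d), hq, ⟨⟨hx', fun T hT => ?_, fun Y =>
    ⟨Int.cast_nonneg (c0 Y), Int.cast_le.2 (c1 Y), fun hY => ?_⟩⟩, v, h4, fun Y hY => ?_⟩, rfl⟩, ?_⟩
  · refine (toR_sd (q • x) (D.bp (q • x) - d)) ▸ hs T _ ⟨r1, fun Y => ⟨c0 Y, (c1 Y).trans (r2 _).2⟩⟩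
      ⟨_, hd, fun Y e => ?_⟩
    rw [Pi.sub_apply, a1 Y (hT Y e), sub_self]
  · change ((D.bp (q • x) Y - d Y : ℤ) : ℝ) ≤ 0
    rw [a2 Y hY, sub_self, Int.cast_zero]
  · change v Y ≤ D.bp (q • x) Y - (D.bp (q • x) Y - d Y)
    rw [a1 Y hY, sub_sub_cancel]
  · refine (dist_pi_lt_iff hε).2 ?_
    rintro (i | Y)
    · have : (q : ℝ)⁻¹ * ((q • x) i : ℤ) = x i := by
        rw [Pi.smul_apply, nsmul_eq_mul]
        push_cast
        field_simp
      change dist (x i : ℝ) ((q : ℝ)⁻¹ * ((q • x) i : ℤ)) < ε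
      rwa [this, dist_self]
    · change dist (max ((D.bp x Y : ℤ) - f Y) 0) ((q : ℝ)⁻¹ * (D.bp (q • x) Y - d Y : ℤ)) < ε
      by_cases hY : f Y < (D.bp x Y : ℤ)
      · have a : f Y ≤ (q : ℝ)⁻¹ * v Y := (le_inv_mul_iff₀ q0).2 (h1 q v hq h4 Y)
        have b : (q : ℝ)⁻¹ * v Y ≤ f Y + min η (ε / 2) := (inv_mul_le_iff₀ q0).2 (h5 Y)
        rw [a1 Y hY, b0, max_eq_left (sub_pos.2 hY).le, Real.dist_eq, abs_lt]
        push_cast
        rw [mul_sub, inv_mul_cancel_left₀ q0.ne']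
        constructor <;> linarith [min_le_right η (ε / 2)]
      · rw [a2 Y hY, max_eq_right (sub_nonpos.2 (not_lt.1 hY))]
        simpa using hε

/-- **Section 4.** -/
theorem Ax.out (h : D.Ax) : D.Out := by
  classical
  choose s hs1 hs2 using h.gen
  obtain ⟨k, δ, hk, hδ, H⟩ := h.crit hs1
  have key : ∀ τ, ∃ t : Finset (Option I ⊕ J → ℤ),
      (∀ z ∈ t, (∀ i, (k : ℤ) ∣ z i) ∧ toR z ∈ closure (D.Ds s τ)) ∧
        closure (D.Ds s τ) ⊆ cone t := fun τ => by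
    obtain ⟨U, hU⟩ := D.pol_amb s τ
    let a : J → Option I ⊕ J → ℤ := fun Y => Pi.single (.inl (some (D.par Y))) 1 - Pi.single (.inr Y) 1
    have ha : ∀ Y w, pr (a Y) w = D.bp (pX w) Y - pC w Y := fun Y w => by
      rw [pr_sub_left, pr_single, pr_single]
      rfl
    refine cone_crit (T := U ∪ univ.image a) (h := Pi.single (.inl none) 1) (M := D.ρ + 1)
      isClosed_closure h.cl_add h.cl_smul (by positivity)
      (fun w hw => by rw [pr_single]; exact h.norm_le (cl_sub hw)) (fun w hw b hb => ?_) hδ hk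
      fun w hw z h0 hz hn hle => ?_
    · rcases mem_union.1 hb with hb | hb
      · exact (hU ▸ cl_sub hw : w ∈ hcone U) b hb
      · obtain ⟨Y, -, rfl⟩ := mem_image.1 hb
        rw [ha]
        exact sub_nonneg.2 ((cl_sub hw).2.2 Y).2.1
    · refine subset_closure ⟨1, z, le_rfl, (H τ w hw z h0 hz ?_ hn fun Y => ?_).1, by simp⟩
      · rw [hU]
        exact fun b hb => ((hU ▸ cl_sub hw : w ∈ hcone U) b hb).trans (hle b (mem_union_left _ hb))
      · have := hle (a Y) (mem_union_right _ (mem_image_of_mem _ (mem_univ Y)))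
        rw [ha, ha] at this
        push_cast
        exact this
  choose t ht1 ht2 using key
  have good : ∀ τ, ∀ z ∈ AddSubmonoid.closure (t τ : Set (Option I ⊕ J → ℤ)), z ≠ 0 →
      D.Zt s τ z ∧ D.Lift (pX z) (pC z) := fun τ z hz h0 => by
    have : (∀ i, (k : ℤ) ∣ z i) ∧ (z = 0 ∨ toR z ∈ closure (D.Ds s τ)) := by
      clear h0
      induction hz using AddSubmonoid.closure_induction with
      | mem x hx => exact ⟨(ht1 τ x hx).1, .inr (ht1 τ x hx).2⟩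
      | zero => simp
      | add x y _ _ hx hy =>
        refine ⟨fun i => dvd_add (hx.1 i) (hy.1 i), ?_⟩
        rcases hx.2 with rfl | a
        · simpa using hy.2
        rcases hy.2 with rfl | b
        · simpa using .inr a
        exact .inr (toR_add x y ▸ h.cl_add _ a _ b)
    have a := this.2.resolve_left h0
    refine H τ _ a z h0 this.1 (cl_sub a) (by simpa using hδ) fun Y => ?_
    push_cast
    rfl
  choose k' hk' hlp using fun τ => exists_lp fun i : t τ => pX i.1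
  have K1 : 1 ≤ ∏ τ, k' τ := one_le_prod' fun τ _ => hk' τ
  refine ⟨∏ τ, k' τ, fun τ => AddSubmonoid.closure (t τ), K1, fun τ => ⟨t τ, rfl⟩,
    fun τ z hz h0 => ?_, fun x q v hx h1 hq hR => ?_⟩
  · obtain ⟨⟨hA, v, hv, -⟩, L⟩ := good τ z hz h0
    exact ⟨hA.1, h.pos hA h0, fun Y => Int.cast_nonneg_iff.1 (hA.2.2 Y).1,
      fun Y => Int.cast_le.1 (hA.2.2 Y).2.1, L, v, hv⟩
  obtain ⟨f, f0, f1, f2⟩ := h.exists_f hq hR
  set τ : Set J := {Y | f Y < (D.bp x Y : ℤ)}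
  obtain ⟨r, r0, r1⟩ := exists_of_mem_cone (ht2 τ (h.mem_cl hs2 hx f1 f2))
  let F := univ.filter (· ∈ τ)
  let wt : t τ → ℝ := fun i => ∑ Y ∈ F, ((i.1 (.inl (some (D.par Y))) : ℝ) - i.1 (.inr Y))
  obtain ⟨n, -, n1, n2⟩ := hlp τ wt (fun i => sum_nonneg fun Y _ =>
    sub_nonneg.2 ((cl_sub (ht1 τ i.1 i.2).2).2.2 Y).2.1) x r r0 fun j => r1 (.inl j)
  obtain ⟨j, hj⟩ := dvd_prod_of_mem k' (mem_univ τ)
  set K := ∏ τ, k' τ
  let z : Option I ⊕ J → ℤ := j • ∑ i, n i • i.1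
  have hz : z ∈ AddSubmonoid.closure (t τ : Set (Option I ⊕ J → ℤ)) :=
    nsmul_mem (sum_mem fun i _ => nsmul_mem (AddSubmonoid.subset_closure i.2) _) _
  have e : pX z = K • x := by
    rw [hj, mul_comm, mul_smul, n1]
    funext i
    simp [z, pX]
  have h0 : z ≠ 0 := fun h0 => by
    have := congrFun e none
    rw [h0, Pi.smul_apply, nsmul_eq_mul] at this
    have a : (0 : ℤ) < K * x none := mul_pos (by exact_mod_cast K1) h1
    exact a.ne this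
  obtain ⟨⟨hA, u, hu, hu'⟩, -⟩ := good τ z hz h0
  refine ⟨τ, z, hz, e, fun w hw Y => ?_⟩
  rw [← e]
  rw [e] at hu
  have le : ∀ Y ∈ F, K * f Y ≤ (z (.inl (some (D.par Y))) : ℝ) - z (.inr Y) := fun Y hY =>
    (f1 K u K1 hu Y).trans (by exact_mod_cast hu' Y (mem_filter.1 hY).2)
  have ge : ∑ Y ∈ F, ((z (.inl (some (D.par Y))) : ℝ) - z (.inr Y)) ≤ ∑ Y ∈ F, K * f Y := by
    have a : ∑ Y ∈ F, ((z (.inl (some (D.par Y))) : ℝ) - z (.inr Y)) = j * ∑ i, n i * wt i := by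
      simp only [wt, mul_sum]
      rw [sum_comm]
      refine sum_congr rfl fun Y _ => ?_
      simp [z, mul_sum, mul_sub]
    have b : ∑ i, r i * wt i = ∑ Y ∈ F, f Y := by
      simp only [wt, mul_sum]
      rw [sum_comm]
      refine sum_congr rfl fun Y hY => ?_
      simp only [mul_sub, sum_sub_distrib, ← r1, Sum.elim_inl, Sum.elim_inr]
      rw [max_eq_left (sub_pos.2 (mem_filter.1 hY).2).le]
      exact sub_sub_cancel _ _
    rw [a, ← mul_sum, ← b, hj, Nat.cast_mul, mul_comm (k' τ : ℝ), mul_assoc]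
    exact mul_le_mul_of_nonneg_left n2 j.cast_nonneg
  refine Int.cast_le (R := ℝ).1 (le_trans ?_ (f1 K w K1 hw Y))
  change ((z (.inl (some (D.par Y))) - z (.inr Y) : ℤ) : ℝ) ≤ _
  push_cast
  by_cases hY : Y ∈ τ
  · exact ((sum_eq_sum_iff_of_le le).1 ((sum_le_sum le).antisymm ge) Y
      (mem_filter.2 ⟨mem_univ _, hY⟩)).ge
  · have a : (0 : ℝ) ≤ z (.inr Y) := (hA.2.2 Y).1
    have b : (z (.inl (some (D.par Y))) : ℝ) = K * (D.bp x Y : ℤ) := by
      have := congrFun e (some (D.par Y))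
      rw [Pi.smul_apply, nsmul_eq_mul] at this
      exact_mod_cast this
    have c := mul_le_mul_of_nonneg_left (not_lt.1 hY) (K.cast_nonneg : (0 : ℝ) ≤ K)
    linarith

end Dat

end P277Z.S4
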